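import Mathlib

/-!
An abstract lemma on finite Markov chains: a chain that is killed with probability one half
at each visit to a set P still reaches P at time N with probability close to that of the
unkilled chain, when returns to P are rare.
-/

namespace Vale.Agent.Lib.P162.H68CV

open Finset BigOperators

section Killed

variable {S : Type*} [Fintype S] [DecidableEq S]

theorem pow_nonneg_entry (K : Matrix S S ℝ) (hK0 : ∀ a b, 0 ≤ K a b) :
    ∀ (i : ℕ) (a b : S), 0 ≤ (K ^ i) a b := by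
  intro i
  induction i with
  | zero =>
    intro a b
    rw [pow_zero, Matrix.one_apply]
    split_ifs
    · exact zero_le_one
    · exact le_rfl
  | succ i ih =>
    intro a b
    rw [pow_succ', Matrix.mul_apply]
    exact Finset.sum_nonneg (fun c _ => mul_nonneg (hK0 a c) (ih c b))

theorem rowP_succ (K : Matrix S S ℝ) (P : Finset S) (n : ℕ) (a : S) :
    ∑ b ∈ P, (K ^ (n + 1)) a b = ∑ c, K a c * ∑ b ∈ P, (K ^ n) c b := by
  calc ∑ b ∈ P, (K ^ (n + 1)) a b = ∑ b ∈ P, ∑ c, K a c * (K ^ n) c b := by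
        refine Finset.sum_congr rfl (fun b _ => ?_)
        rw [pow_succ', Matrix.mul_apply]
    _ = ∑ c, ∑ b ∈ P, K a c * (K ^ n) c b := Finset.sum_comm
    _ = ∑ c, K a c * ∑ b ∈ P, (K ^ n) c b := by
        refine Finset.sum_congr rfl (fun c _ => ?_)
        rw [Finset.mul_sum]

/-- The double sum of the first-visit decomposition. -/
noncomputable def Dsum (K : Matrix S S ℝ) (P : Finset S) (n : ℕ) (a : S) : ℝ :=
  ∑ i ∈ range n, ∑ π ∈ P, (K ^ i) a π * ∑ b ∈ P, (K ^ (n - i)) π b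

theorem Dsum_nonneg (K : Matrix S S ℝ) (hK0 : ∀ a b, 0 ≤ K a b) (P : Finset S) (n : ℕ)
    (a : S) : 0 ≤ Dsum K P n a := by
  unfold Dsum
  exact Finset.sum_nonneg (fun i _ => Finset.sum_nonneg (fun π _ =>
    mul_nonneg (pow_nonneg_entry K hK0 i a π)
      (Finset.sum_nonneg (fun b _ => pow_nonneg_entry K hK0 (n - i) π b))))

theorem Dsum_succ (K : Matrix S S ℝ) (P : Finset S) (n : ℕ) (a : S) :
    Dsum K P (n + 1) a
      = (if a ∈ P then ∑ b ∈ P, (K ^ (n + 1)) a b else 0) + ∑ c, K a c * Dsum K P n c := by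
  unfold Dsum
  rw [Finset.sum_range_succ']
  have h0 : ∑ π ∈ P, (K ^ 0) a π * ∑ b ∈ P, (K ^ (n + 1 - 0)) π b
      = if a ∈ P then ∑ b ∈ P, (K ^ (n + 1)) a b else 0 := by
    rw [pow_zero, Nat.sub_zero]
    simp only [Matrix.one_apply, ite_mul, one_mul, zero_mul]
    rw [Finset.sum_ite_eq]
  have h1 : ∑ i ∈ range n, ∑ π ∈ P, (K ^ (i + 1)) a π * ∑ b ∈ P, (K ^ (n + 1 - (i + 1))) π b
      = ∑ c, K a c * ∑ i ∈ range n, ∑ π ∈ P, (K ^ i) c π * ∑ b ∈ P, (K ^ (n - i)) π b := by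
    calc ∑ i ∈ range n, ∑ π ∈ P, (K ^ (i + 1)) a π * ∑ b ∈ P, (K ^ (n + 1 - (i + 1))) π b
        = ∑ i ∈ range n, ∑ c, ∑ π ∈ P,
            K a c * ((K ^ i) c π * ∑ b ∈ P, (K ^ (n - i)) π b) := by
          refine Finset.sum_congr rfl (fun i _ => ?_)
          rw [Finset.sum_comm]
          refine Finset.sum_congr rfl (fun π _ => ?_)
          rw [Nat.add_sub_add_right, pow_succ', Matrix.mul_apply, Finset.sum_mul]
          refine Finset.sum_congr rfl (fun c _ => ?_)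
          rw [mul_assoc]
      _ = ∑ c, ∑ i ∈ range n, ∑ π ∈ P,
            K a c * ((K ^ i) c π * ∑ b ∈ P, (K ^ (n - i)) π b) := Finset.sum_comm
      _ = ∑ c, K a c * ∑ i ∈ range n, ∑ π ∈ P, (K ^ i) c π * ∑ b ∈ P, (K ^ (n - i)) π b := by
          refine Finset.sum_congr rfl (fun c _ => ?_)
          rw [Finset.mul_sum]
          refine Finset.sum_congr rfl (fun i _ => ?_)
          rw [Finset.mul_sum]
  rw [h0, h1, add_comm]

theorem killed_aux (K A : Matrix S S ℝ) (hK0 : ∀ a b, 0 ≤ K a b) (P : Finset S)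
    (hA : ∀ a c, A a c = (if a ∈ P then (1 / 2 : ℝ) else 1) * K a c) :
    ∀ (n : ℕ) (a : S),
      ∑ b ∈ P, (K ^ n) a b - (1 / 2) * Dsum K P n a ≤ ∑ b ∈ P, (A ^ n) a b := by
  intro n
  induction n with
  | zero =>
    intro a
    have hD0 : Dsum K P 0 a = 0 := by
      unfold Dsum
      rw [Finset.range_zero, Finset.sum_empty]
    have h : ∑ b ∈ P, (K ^ 0) a b - (1 / 2) * Dsum K P 0 a = ∑ b ∈ P, (A ^ 0) a b := by
      rw [hD0, pow_zero, pow_zero, mul_zero, sub_zero]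
    exact le_of_eq h
  | succ n ih =>
    intro a
    have hE : 0 ≤ ∑ c, K a c * Dsum K P n c :=
      Finset.sum_nonneg (fun c _ => mul_nonneg (hK0 a c) (Dsum_nonneg K hK0 P n c))
    have hIH : ∑ c, K a c * (∑ b ∈ P, (K ^ n) c b - (1 / 2) * Dsum K P n c)
        ≤ ∑ c, K a c * ∑ b ∈ P, (A ^ n) c b :=
      Finset.sum_le_sum (fun c _ => mul_le_mul_of_nonneg_left (ih c) (hK0 a c))
    have hsplit : ∑ c, K a c * (∑ b ∈ P, (K ^ n) c b - (1 / 2) * Dsum K P n c)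
        = ∑ c, K a c * ∑ b ∈ P, (K ^ n) c b - (1 / 2) * ∑ c, K a c * Dsum K P n c := by
      rw [Finset.mul_sum, ← Finset.sum_sub_distrib]
      refine Finset.sum_congr rfl (fun c _ => by ring)
    have hAr : ∑ c, A a c * ∑ b ∈ P, (A ^ n) c b
        = (if a ∈ P then (1 / 2 : ℝ) else 1) * ∑ c, K a c * ∑ b ∈ P, (A ^ n) c b := by
      rw [Finset.mul_sum]
      refine Finset.sum_congr rfl (fun c _ => ?_)
      rw [hA a c, mul_assoc]
    have hR := rowP_succ K P n a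
    rw [hsplit, ← hR] at hIH
    rw [Dsum_succ, rowP_succ A P n a, hAr]
    by_cases ha : a ∈ P
    · rw [if_pos ha, if_pos ha]
      linarith
    · rw [if_neg ha, if_neg ha]
      linarith

theorem visits_le (K : Matrix S S ℝ) (hK0 : ∀ a b, 0 ≤ K a b) (hK1 : ∀ a, ∑ b, K a b = 1)
    (P : Finset S) (m0 : ℕ)
    (hgap : ∀ a ∈ P, ∀ s, 1 ≤ s → s ≤ m0 → ∑ b ∈ P, (K ^ s) a b = 0) :
    ∀ (m : ℕ), m ≤ m0 + 1 → ∀ a : S, ∑ i ∈ range m, ∑ b ∈ P, (K ^ i) a b ≤ 1 := by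
  intro m
  induction m with
  | zero =>
    intro _ a
    rw [Finset.range_zero, Finset.sum_empty]
    exact zero_le_one
  | succ m ih =>
    intro hm a
    have hm' : m ≤ m0 := by omega
    rw [Finset.sum_range_succ']
    have h0 : ∑ b ∈ P, (K ^ 0) a b = if a ∈ P then 1 else 0 := by
      rw [pow_zero]
      simp only [Matrix.one_apply]
      rw [Finset.sum_ite_eq]
    rw [h0]
    by_cases ha : a ∈ P
    · rw [if_pos ha]
      have hz : ∑ i ∈ range m, ∑ b ∈ P, (K ^ (i + 1)) a b = 0 := by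
        apply Finset.sum_eq_zero
        intro i hi
        rw [Finset.mem_range] at hi
        exact hgap a ha (i + 1) (by omega) (by omega)
      rw [hz, zero_add]
    · rw [if_neg ha, add_zero]
      have hrw : ∑ i ∈ range m, ∑ b ∈ P, (K ^ (i + 1)) a b
          = ∑ c, K a c * ∑ i ∈ range m, ∑ b ∈ P, (K ^ i) c b := by
        calc ∑ i ∈ range m, ∑ b ∈ P, (K ^ (i + 1)) a b
            = ∑ i ∈ range m, ∑ c, K a c * ∑ b ∈ P, (K ^ i) c b :=
              Finset.sum_congr rfl (fun i _ => rowP_succ K P i a)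
          _ = ∑ c, ∑ i ∈ range m, K a c * ∑ b ∈ P, (K ^ i) c b := Finset.sum_comm
          _ = ∑ c, K a c * ∑ i ∈ range m, ∑ b ∈ P, (K ^ i) c b := by
              refine Finset.sum_congr rfl (fun c _ => ?_)
              rw [Finset.mul_sum]
      rw [hrw]
      calc ∑ c, K a c * ∑ i ∈ range m, ∑ b ∈ P, (K ^ i) c b
          ≤ ∑ c, K a c * 1 :=
            Finset.sum_le_sum (fun c _ => mul_le_mul_of_nonneg_left (ih (by omega) c) (hK0 a c))
        _ = 1 := by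
            simp only [mul_one]
            exact hK1 a

end Killed

theorem killed_lower {S : Type*} [Fintype S] [DecidableEq S] (K : Matrix S S ℝ)
    (hK0 : ∀ a b, 0 ≤ K a b) (hK1 : ∀ a, ∑ b, K a b = 1)
    (P : Finset S) (Gd : S → Prop) (hGd : ∀ a b, Gd a → K a b ≠ 0 → Gd b) (hPG : ∀ a ∈ P, Gd a)
    (m0 s1 N : ℕ) (α β γ : ℝ) (hα : 0 ≤ α) (hβ : 0 ≤ β)
    (hgap : ∀ a ∈ P, ∀ s, 1 ≤ s → s ≤ m0 → ∑ b ∈ P, (K ^ s) a b = 0)
    (hlate : ∀ a, Gd a → ∀ s, m0 ≤ s → ∑ b ∈ P, (K ^ s) a b ≤ β)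
    (hmix : ∀ a ∈ P, ∀ s, s1 ≤ s → ∑ b ∈ P, (K ^ s) a b ≤ α)
    (hN : s1 + m0 ≤ N) (σ : S) (hσ : Gd σ) (hγ : γ ≤ ∑ b ∈ P, (K ^ N) σ b) :
    γ - α / 2 - N * β ^ 2 / 2
      ≤ ∑ b ∈ P, ((Matrix.of fun a b => (if a ∈ P then (1 / 2 : ℝ) else 1) * K a b) ^ N) σ b := by
  have _hGd := hGd
  have hmain := killed_aux K (Matrix.of fun a b => (if a ∈ P then (1 / 2 : ℝ) else 1) * K a b)
    hK0 P (fun a c => rfl) N σ
  have hr0 : ∀ (i : ℕ) (a : S), 0 ≤ ∑ b ∈ P, (K ^ i) a b :=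
    fun i a => Finset.sum_nonneg (fun b _ => pow_nonneg_entry K hK0 i a b)
  have hDb : Dsum K P N σ ≤ α + N * β ^ 2 := by
    unfold Dsum
    have hterm : ∀ i ∈ range N, ∑ π ∈ P, (K ^ i) σ π * ∑ b ∈ P, (K ^ (N - i)) π b
        ≤ α * (if i ≤ m0 then ∑ b ∈ P, (K ^ i) σ b else 0) + β * β := by
      intro i hi
      rw [Finset.mem_range] at hi
      by_cases him : i ≤ m0
      · rw [if_pos him]
        have h1 : ∑ π ∈ P, (K ^ i) σ π * ∑ b ∈ P, (K ^ (N - i)) π b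
            ≤ ∑ π ∈ P, (K ^ i) σ π * α :=
          Finset.sum_le_sum (fun π hπ => mul_le_mul_of_nonneg_left
            (hmix π hπ (N - i) (by omega)) (pow_nonneg_entry K hK0 i σ π))
        rw [← Finset.sum_mul] at h1
        have h2 : 0 ≤ β * β := mul_nonneg hβ hβ
        linarith
      · rw [if_neg him, mul_zero, zero_add]
        have hb : ∀ π ∈ P, ∑ b ∈ P, (K ^ (N - i)) π b ≤ β := by
          intro π hπ
          by_cases hs : N - i ≤ m0
          · rw [hgap π hπ (N - i) (by omega) hs]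
            exact hβ
          · exact hlate π (hPG π hπ) (N - i) (by omega)
        have h1 : ∑ π ∈ P, (K ^ i) σ π * ∑ b ∈ P, (K ^ (N - i)) π b
            ≤ ∑ π ∈ P, (K ^ i) σ π * β :=
          Finset.sum_le_sum (fun π hπ => mul_le_mul_of_nonneg_left (hb π hπ)
            (pow_nonneg_entry K hK0 i σ π))
        rw [← Finset.sum_mul] at h1
        have h2 : ∑ π ∈ P, (K ^ i) σ π ≤ β := hlate σ hσ i (by omega)
        exact le_trans h1 (mul_le_mul_of_nonneg_right h2 hβ)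
    have hv : ∑ i ∈ range N, (if i ≤ m0 then ∑ b ∈ P, (K ^ i) σ b else 0) ≤ 1 := by
      rw [← Finset.sum_filter]
      calc ∑ i ∈ (range N).filter (fun i => i ≤ m0), ∑ b ∈ P, (K ^ i) σ b
          ≤ ∑ i ∈ range (m0 + 1), ∑ b ∈ P, (K ^ i) σ b := by
            apply Finset.sum_le_sum_of_subset_of_nonneg
            · intro i hi
              rw [Finset.mem_filter] at hi
              rw [Finset.mem_range]
              omega
            · intro i _ _
              exact hr0 i σ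
        _ ≤ 1 := visits_le K hK0 hK1 P m0 hgap (m0 + 1) le_rfl σ
    calc ∑ i ∈ range N, ∑ π ∈ P, (K ^ i) σ π * ∑ b ∈ P, (K ^ (N - i)) π b
        ≤ ∑ i ∈ range N, (α * (if i ≤ m0 then ∑ b ∈ P, (K ^ i) σ b else 0) + β * β) :=
          Finset.sum_le_sum hterm
      _ = α * ∑ i ∈ range N, (if i ≤ m0 then ∑ b ∈ P, (K ^ i) σ b else 0) + N * (β * β) := by
          rw [Finset.sum_add_distrib, ← Finset.mul_sum, Finset.sum_const, Finset.card_range,
            nsmul_eq_mul]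
      _ ≤ α * 1 + N * (β * β) := by
          have h3 := mul_le_mul_of_nonneg_left hv hα
          linarith
      _ = α + N * β ^ 2 := by ring
  linarith

end Vale.Agent.Lib.P162.H68CV

namespace Vale.Agent.Lib.P162.H68CV.Check

open Finset BigOperators

example : ∀ {S : Type*} [Fintype S] [DecidableEq S] (K : Matrix S S ℝ)
    (_ : ∀ a b, 0 ≤ K a b) (_ : ∀ a, ∑ b, K a b = 1)
    (P : Finset S) (Gd : S → Prop) (_ : ∀ a b, Gd a → K a b ≠ 0 → Gd b) (_ : ∀ a ∈ P, Gd a)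
    (m0 s1 N : ℕ) (α β γ : ℝ) (_ : 0 ≤ α) (_ : 0 ≤ β)
    (_ : ∀ a ∈ P, ∀ s, 1 ≤ s → s ≤ m0 → ∑ b ∈ P, (K ^ s) a b = 0)
    (_ : ∀ a, Gd a → ∀ s, m0 ≤ s → ∑ b ∈ P, (K ^ s) a b ≤ β)
    (_ : ∀ a ∈ P, ∀ s, s1 ≤ s → ∑ b ∈ P, (K ^ s) a b ≤ α)
    (_ : s1 + m0 ≤ N) (σ : S) (_ : Gd σ) (_ : γ ≤ ∑ b ∈ P, (K ^ N) σ b),
    γ - α / 2 - N * β ^ 2 / 2
      ≤ ∑ b ∈ P, ((Matrix.of fun a b => (if a ∈ P then (1 / 2 : ℝ) else 1) * K a b) ^ N) σ b :=
  @Vale.Agent.Lib.P162.H68CV.killed_lower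

end Vale.Agent.Lib.P162.H68CV.Check
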